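import Vale.Agent.P011LU.Gen
import Vale.Agent.P011.Arith.Schilling
import Mathlib.LinearAlgebra.Matrix.SchurComplement

/-!
The torus of an isotropic hermitian form.
-/

open Matrix
open scoped Kronecker ComplexOrder

namespace Vale.Agent.P011LU

open P011L P011LD P011LE P011LT

variable {k K : Type} [Field k] [Field K] [Algebra k K] {o : (K ≃ₐ[k] K) →* ℤˣ}
  {s s' : K ≃ₐ[k] K}

theorem o_out (h : o s ≠ 1) : o s = -1 := (Int.units_eq_one_or _).resolve_left h

theorem o_mul (h : o s ≠ 1) (h' : o s' ≠ 1) : o (s * s') = 1 := by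
  rw [map_mul, o_out h, o_out h', neg_mul_neg, one_mul]

/-- A real place extends to a complex embedding with its conjugation. -/
theorem ex_cj [NumberField k] [IsAlgClosure k K] (φ : k →+* ℝ) :
    ∃ (w : K →+* ℂ) (κ : K ≃ₐ[k] K), Cj w κ ∧ ∀ x, w (algebraMap k K x) = φ x := by
  let := (Complex.ofRealHom.comp φ).toAlgebra
  let w : K →ₐ[k] ℂ := IsAlgClosed.lift
  let := w.toRingHom.toAlgebra
  have : IsScalarTower k K ℂ := IsScalarTower.of_algebraMap_eq fun x => (w.commutes x).symm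
  let c : ℂ →ₐ[k] ℂ := ⟨starRingEnd ℂ, fun x => Complex.conj_ofReal _⟩
  exact ⟨w.toRingHom, c.restrictNormal' K, fun x => c.restrictNormal_commutes K x, w.commutes⟩

/-- A hyperbolic pair for an indefinite hermitian form of rank three. -/
theorem hyp [NumberField k] [IsAlgClosure k K] [CharZero K] (hc : Op ⊤ fun σ => o σ = 1)
    (G : Fin 3 → K) (G0 : ∀ j, G j ≠ 0) (G1 : G 0 = 1) (Gf : ∀ (σ : K ≃ₐ[k] K) j, σ (G j) = G j)
    (hd : ∀ w κ, Cj w κ → o κ ≠ 1 → ¬((diagonal G).map w).PosDef) :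
    ∃ B : Matrix (Fin 2) (Fin 3) K, (∀ σ, o σ = 1 → B.map σ = B) ∧
      ∀ s, o s ≠ 1 → B * diagonal G * (B.map s)ᵀ = !![0, 1; 1, 0] := by
  obtain ⟨θ, θ0, hθ⟩ := h90_one (Γ := ⊤) (fun σ => ((o σ : ℤ) : K))
    (fun σ _ τ _ => by simp) (hc.imp fun σ _ a => by simp [a])
  have t1 : ∀ σ, o σ = 1 → σ θ = θ := fun σ a => by simpa [a] using hθ σ trivial
  have t2 : ∀ σ, o σ ≠ 1 → σ θ = -θ := fun σ a => by
    simpa [o_out a, neg_eq_iff_eq_neg] using hθ σ trivial
  obtain ⟨d, hd'⟩ := fixed_top (k := k) (c := θ * θ) fun σ => by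
    by_cases a : o σ = 1
    · rw [map_mul, t1 σ a]
    · rw [map_mul, t2 σ a, neg_mul_neg]
  choose g hg using fun j => fixed_top (k := k) (Gf · j)
  have g0 : ∀ j, -g j ≠ 0 := fun j => neg_ne_zero.2 fun e => G0 j (by rw [← hg, e, map_zero])
  have d0 : d ≠ 0 := fun e => mul_ne_zero θ0 θ0 (by rw [← hd', e, map_zero])
  obtain ⟨x, y, z, t, e⟩ := P011.Arith.Sch.quaternion_norm (Units.mk0 d d0) (Units.mk0 _ (g0 1))
    (Units.mk0 _ (g0 2)) fun φ a b => by
      obtain ⟨w, κ, c, hw⟩ := ex_cj (K := K) φ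
      simp only [Units.val_mk0, map_neg, neg_neg_iff_pos, neg_pos] at a b ⊢
      refine lt_of_le_of_ne (not_lt.1 fun b' => hd w κ c (fun i => ?_) ?_)
        ((_root_.map_ne_zero φ).2 (neg_ne_zero.1 (g0 2)))
      · have h1 := congrArg Complex.im (c θ)
        have h2 := congrArg Complex.re ((hw d).symm.trans (congrArg w hd'))
        rw [t1 κ i, Complex.star_def, Complex.conj_im] at h1
        rw [map_mul, Complex.mul_re, Complex.ofReal_re] at h2
        nlinarith [mul_self_nonneg (w θ).re]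
      · rw [diagonal_map (map_zero w), posDef_diagonal_iff]
        intro j
        fin_cases j
        · simp [G1]
        · simpa [← hg, hw] using b
        · simpa [← hg, hw] using b'
  have e' := congrArg (algebraMap k K) e
  simp only [Units.val_mk0, map_neg, map_add, map_sub, map_mul, map_pow, hg, hd'] at e'
  have G2 := G0 2
  refine ⟨!![algebraMap k K x + algebraMap k K y * θ, algebraMap k K z + algebraMap k K t * θ, 1;
    -(algebraMap k K x + algebraMap k K y * θ) / (2 * G 2),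
    -(algebraMap k K z + algebraMap k K t * θ) / (2 * G 2), 1 / (2 * G 2)], fun σ a => ?_,
    fun σ a => ?_⟩
  · ext i j
    fin_cases i <;> fin_cases j <;> simp [t1 σ a, Gf, map_ofNat]
  · ext i j
    rw [mul_apply]
    simp only [mul_diagonal]
    fin_cases i <;> fin_cases j <;> simp [Fin.sum_univ_three, t2 σ a, Gf, map_ofNat, G1] <;>
      field_simp <;> first | linear_combination -e' | linear_combination e'

/-- The embedding of `GL₂` given by a splitting. -/
def tau (A : Matrix (Fin 3) (Fin 2) K) (B : Matrix (Fin 2) (Fin 3) K) (e : B * A = 1) :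
    GL (Fin 2) K →* GL (Fin 3) K := Units.map
  { toFun := fun x => 1 + A * (x - 1) * B
    map_one' := by simp
    map_mul' := fun x y => by
      have : A * (x - 1) * B * (A * (y - 1) * B) = A * ((x - 1) * (y - 1)) * B := by
        simp only [Matrix.mul_assoc]
        rw [← Matrix.mul_assoc B, e, Matrix.one_mul]
      rw [add_mul, mul_add, mul_add, one_mul, one_mul, mul_one, this, add_assoc,
        ← Matrix.add_mul, ← Matrix.mul_add, ← Matrix.add_mul, ← Matrix.mul_add]
      congr 3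
      noncomm_ring }

theorem tau_val {A : Matrix (Fin 3) (Fin 2) K} {B : Matrix (Fin 2) (Fin 3) K} (e : B * A = 1)
    (x : GL (Fin 2) K) : (tau A B e x).1 = 1 + A * (x.1 - 1) * B := rfl

theorem kr_mul (d d' : GL (Fin 3) K) (h h' : GL (Fin 2) K) :
    kr d h * kr d' h' = kr (d * d') (h * h') := Units.ext (mul_kronecker_mul _ _ _ _).symm

theorem st_kr (σ : K ≃ₐ[k] K) (d : GL (Fin 3) K) (h : GL (Fin 2) K) :
    st o σ (kr d h) = kr (st o σ d) (st o σ h) := by
  by_cases e : o σ = 1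
  · rw [st_in e, st_in e, st_in e]
    exact Units.ext (Matrix.ext fun _ _ => map_mul σ _ _)
  · rw [st_out e, st_out e, st_out e]
    exact Units.ext (Matrix.ext fun _ _ => map_mul σ _ _)

theorem LM.kr {f : Kˣ → Matrix (Fin 3) (Fin 3) K} (h : LM f) (M : Matrix (Fin 2) (Fin 2) K) :
    LM fun t => f t ⊗ₖ M := fun i j => Lau.mul (h i.1 j.1) (Lau.const (M i.2 j.2))

theorem tor : TOR := by
  intro k K _ _ _ _ _ _ T o p c d α γ b m hT ⟨s, hs⟩ mon nf hd
  have dv : ∀ σ, (d σ).1 = diagonal (c σ) := fun σ => (mon.val σ).trans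
    (Matrix.ext fun i j => by by_cases e : i = j <;> simp [mono, e])
  have c0 : ∀ σ j, c σ j ≠ 0 := fun σ j e => (d σ).det_ne_zero (by
    rw [dv, det_diagonal]
    exact Finset.prod_eq_zero (Finset.mem_univ j) e)
  have m1 : ∀ σ τ, o σ = 1 → ∀ j, σ (c τ j / c τ 0) = c (σ * τ) j / c (σ * τ) 0 := fun σ τ a j => by
    obtain ⟨z, -, e⟩ := mon.cmp.mul σ τ
    have e1 : ∀ j, c σ 0 * σ (c τ j) = z * c (σ * τ) j := fun j => by
      have := congrFun₂ e j j
      rw [st_in a, Units.val_mul, dv, diagonal_mul, mon.sc σ a rfl j] at this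
      simpa [dv] using this
    rw [map_div₀, div_eq_div_iff ((_root_.map_ne_zero σ).2 (c0 _ _)) (c0 _ _)]
    refine mul_left_cancel₀ (c0 σ 0) ?_
    linear_combination c (σ * τ) 0 * e1 j - c (σ * τ) j * e1 0
  have m2 : ∀ σ τ, o σ ≠ 1 → ∀ j, c σ j / c σ 0 =
      σ (c τ j / c τ 0) * (c (σ * τ) j / c (σ * τ) 0) := fun σ τ a j => by
    obtain ⟨z, -, e⟩ := mon.cmp.mul σ τ
    have e0 : (d σ).1 = z • (d (σ * τ)).1 * ((d τ).1.map σ)ᵀ := by
      rw [← e, st_out a, Units.val_mul, mul_assoc]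
      exact (mul_one _).symm.trans (congrArg _ (Units.mul_inv _).symm)
    have e1 : ∀ j, c σ j = z * c (σ * τ) j * σ (c τ j) := fun j => by
      have := congrFun₂ e0 j j
      simpa [dv, diagonal_map (map_zero σ)] using this
    have := c0 σ 0
    have := c0 (σ * τ) 0
    have := (_root_.map_ne_zero σ).2 (c0 τ 0)
    rw [map_div₀]
    field_simp
    linear_combination σ (c τ 0) * c (σ * τ) 0 * e1 j - σ (c τ j) * c (σ * τ) j * e1 0
  have g1 : ∀ σ, o σ = 1 → ∀ j, c σ j / c σ 0 = 1 := fun σ a j => by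
    rw [mon.sc σ a rfl j, div_self (c0 _ _)]
  have g2 : ∀ σ, o σ ≠ 1 → ∀ j, c σ j / c σ 0 = c s j / c s 0 := fun σ a j => by
    have i : o (σ⁻¹ * s) = 1 := o_mul (by rwa [map_inv, ne_eq, inv_eq_one]) hs
    rw [m2 σ (σ⁻¹ * s) a, g1 _ i, map_one, one_mul, mul_inv_cancel_left]
  have dG : ∀ σ, o σ ≠ 1 → (d σ).1 = c σ 0 • diagonal fun j => c s j / c s 0 := fun σ a => by
    rw [dv, ← diagonal_smul]
    exact congrArg _ (funext fun j => by
      rw [Pi.smul_apply, ← g2 σ a, smul_eq_mul, mul_div_cancel₀ _ (c0 _ _)])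
  have Gf : ∀ (σ : K ≃ₐ[k] K) j, σ (c s j / c s 0) = c s j / c s 0 := fun σ j => by
    by_cases a : o σ = 1
    · rw [m1 σ s a, g2 _ (by rwa [map_mul, a, one_mul])]
    · have := m2 σ s a j
      rw [g1 _ (o_mul a hs), mul_one, g2 σ a] at this
      exact this.symm
  obtain ⟨B, B1, B2⟩ := hyp (o := o) (mon.cmp.cont.imp fun σ _ a => a.1)
    (fun j => c s j / c s 0) (fun j => div_ne_zero (c0 _ _) (c0 _ _)) (div_self (c0 _ _)) Gf
    fun w κ h a e => hd w κ h a ⟨(w (c κ 0))⁻¹, by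
      rw [dG κ a, Matrix.map_smul' _ _ _ (map_mul w),
        inv_smul_smul₀ ((_root_.map_ne_zero w).2 (c0 _ _))]
      exact e⟩
  have Df : ∀ σ : K ≃ₐ[k] K, (diagonal fun j => c s j / c s 0).map σ =
      diagonal fun j => c s j / c s 0 := fun σ => by simp only [diagonal_map (map_zero σ), Gf]
  have Dt : (diagonal fun j => c s j / c s 0)ᵀ = diagonal fun j => c s j / c s 0 :=
    diagonal_transpose _
  generalize (diagonal fun j => c s j / c s 0) = D at dG B2 Df Dt
  generalize hW : (!![0, 1; 1, 0] : Matrix (Fin 2) (Fin 2) K) = W at B2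
  have W1 : W * W = 1 := by simp [← hW, ← one_fin_two]
  have W2 : ∀ σ : K ≃ₐ[k] K, W.map σ = W := fun σ => Matrix.ext fun i j => by
    fin_cases i <;> fin_cases j <;> simp [← hW]
  have W3 : Wᵀ = W := Matrix.ext fun i j => by fin_cases i <;> fin_cases j <;> simp [← hW]
  have W4 : ∀ t : Kˣ, W * ((dl t)⁻¹.1 - 1)ᵀ * W = (dl t).1 - 1 := fun t => by
    rw [dl_inv, dl_val, ← hW, one_fin_two]
    ext i j
    fin_cases i <;> fin_cases j <;> simp [mul_apply, vecMul, dotProduct]
  have B3 : ∀ σ, o σ ≠ 1 → B.map σ = B.map s := fun σ a => by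
    conv_rhs => rw [← B1 _ (o_mul (s := s⁻¹) (by rwa [map_inv, ne_eq, inv_eq_one]) a)]
    exact Matrix.ext fun _ _ => (s.apply_symm_apply _).symm
  have e : B * (D * (B.map s)ᵀ * W) = 1 := by
    rw [← Matrix.mul_assoc, ← Matrix.mul_assoc, B2 s hs, W1]
  have mp : ∀ (σ : K ≃ₐ[k] K) (x : Matrix (Fin 2) (Fin 2) K),
      (1 + D * (B.map s)ᵀ * W * (x - 1) * B).map σ =
        1 + D * (B.map (σ * s))ᵀ * W * (x.map σ - 1) * B.map σ := fun σ x => by
    rw [Matrix.map_add _ (map_add σ), map_mul', map_mul', map_mul', map_mul', map_one', Df, W2,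
      Matrix.map_sub _ (map_sub σ), map_one', transpose_map]
    rfl
  have md : ∀ (σ : K ≃ₐ[k] K) (t : Kˣ), (dl t).1.map σ = (dl (Units.map (σ : K →* K) t)).1 :=
    fun σ t => congrArg Units.val (map_dl σ t)
  refine nani hT nf.sim (.mk' (fun t => kr (tau _ _ e (dl t)) 1) fun t u => by
      rw [kr_mul, map_mul, map_mul, one_mul]) 1
    (((LM.const 1).add (((LM.const _).mul (lm_dl.sub (LM.const 1))).mul (LM.const B))).kr 1)
    (((LM.const 1).add (((LM.const _).mul (lm_dl'.sub (LM.const 1))).mul (LM.const B))).kr 1)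
    (LM.const _) (fun t => ?_) (fun _ => det_one) (fun σ => ?_)
    ⟨Units.mk0 2 two_ne_zero, fun h => ?_⟩
  · show det ((tau _ _ e (dl t)).1 ⊗ₖ (1 : Matrix (Fin 2) (Fin 2) K)) = 1
    rw [det_kronecker, tau_val, det_one_add_mul_comm, ← Matrix.mul_assoc, e, Matrix.one_mul,
      add_sub_cancel, dl_det, det_one, one_pow, one_pow, one_mul]
  · obtain ⟨x, hx⟩ := nf.eq σ
    refine ⟨x, _, _, _, hx, fun t => ⟨?_, by simp⟩⟩
    show kr _ _ * _ = _ * st o σ (kr _ _)
    rw [st_kr, kr_mul, kr_mul, map_one, one_mul, mul_one]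
    refine congrArg (kr · _) (Units.ext ?_)
    by_cases a : o σ = 1
    · have : (d σ).1 = c σ 0 • 1 := by
        rw [dv, smul_one_eq_diagonal]
        exact congrArg _ (funext (mon.sc σ a rfl))
      rw [st_in a, Units.val_mul, Units.val_mul, this, mul_smul_comm, smul_mul_assoc, mul_one,
        one_mul, tau_val, ← md]
      refine congrArg _ (Eq.symm ((mp σ _).trans ?_))
      rw [B1 σ a, B3 (σ * s) (by rwa [map_mul, a, one_mul])]
    · rw [st_out a, Units.val_mul, Units.val_mul, dG σ a, mul_smul_comm, smul_mul_assoc, tau_val,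
        it_val, ← map_inv, ← map_inv, ← map_inv]
      refine congrArg _ (Eq.symm ((congrArg (D * ·ᵀ) (mp σ _)).trans ?_))
      rw [md, map_inv, map_inv, B1 _ (o_mul a hs), B3 σ a, ← W4]
      simp only [transpose_add, transpose_mul, transpose_one, transpose_transpose, Dt, W3, mul_add,
        add_mul, mul_one, one_mul, Matrix.mul_assoc]
      rw [← Matrix.mul_assoc W W, W1, Matrix.one_mul]
  · have h1 : (tau _ _ e (dl (Units.mk0 2 two_ne_zero))).1 = 1 := Matrix.ext fun i j => by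
      have := congrArg (fun X : R K => (X (jm 0 (zero_mem _) (single 0 (j, 0) 1))).2 0 (i, 0)) h
      simpa [io_2, kr, single_mul_apply_same, one_apply, single_apply, eq_comm] using this
    have h2 := congrArg (fun x => (B * x * (D * (B.map s)ᵀ * W)) 0 0) h1
    simp only [tau_val] at h2
    generalize D * (B.map s)ᵀ * W = A at e h2
    simp only [Matrix.mul_add, Matrix.add_mul, Matrix.mul_one, ← Matrix.mul_assoc, e,
      Matrix.one_mul] at h2
    rw [Matrix.mul_assoc, e, Matrix.mul_one] at h2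
    norm_num [dl_val] at h2

end Vale.Agent.P011LU
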