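import Vale.Agent.P011LE.IF
import Vale.Agent.P011LT.Tor

/-!
Equivariant cocharacters: the general lemma and the torus of a rational standard pair.
-/

open Matrix

namespace Vale.Agent.P011LU

open P011L P011LD P011LE P011LT

variable {k K : Type} [Field k] [Field K] [Algebra k K]

/-- Matrices with Laurent entries. -/
def LM {m n : Type} (f : Kˣ → Matrix m n K) : Prop := ∀ i j, (fun t => f t i j) ∈ Lau K K

section

variable {l m n : Type} {f f' : Kˣ → Matrix m n K}

theorem LM.const (M : Matrix m n K) : LM fun _ => M := fun _ _ => Lau.const _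

theorem LM.mul [Fintype n] {g : Kˣ → Matrix n l K} (hf : LM f) (hg : LM g) :
    LM fun t => f t * g t := fun i j =>
  Lau.congr (Submodule.sum_mem _ fun x (_ : x ∈ Finset.univ) => Lau.mul (hf i x) (hg x j))
    fun t => by simp [mul_apply]

theorem LM.add (hf : LM f) (hg : LM f') : LM fun t => f t + f' t := fun i j =>
  add_mem (hf i j) (hg i j)

theorem LM.sub (hf : LM f) (hg : LM f') : LM fun t => f t - f' t := fun i j =>
  sub_mem (hf i j) (hg i j)

theorem LM.tp (hf : LM f) : LM fun t => (f t)ᵀ := fun i j => hf j i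

end

theorem lm_E {X : Kˣ → R K} (h1 : ∀ y, LM fun t => (X t y).1.1) (h2 : ∀ y, LM fun t => (X t y).2) :
    LM fun t => E.symm (X t) := fun ⟨a, b, c⟩ j => by
  have e : ∀ t, E.symm (X t) (a, b, c) j = coF (X t (co.symm (Pi.single j 1))) a b c := fun t => by
    rw [← co_apply, co_R, LinearEquiv.apply_symm_apply, mulVec_single_one]
    rfl
  simp only [e]
  fin_cases a <;> fin_cases b <;> fin_cases c <;>
    first
    | exact h1 _ _ _
    | exact h2 _ _ _
    | exact neg_mem (h1 _ _ _)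
    | exact neg_mem (h2 _ _ _)

/-- The diagonal torus of `SL₂`. -/
def dl : Kˣ →* GL (Fin 2) K := MonoidHom.toHomUnits
  { toFun := fun t => !![t.1, 0; 0, t⁻¹.1]
    map_one' := by simp [← one_fin_two]
    map_mul' := fun t u => by simp [mul_comm] }

theorem dl_val (t : Kˣ) : (dl t).1 = !![t.1, 0; 0, t⁻¹.1] := rfl

theorem dl_inv (t : Kˣ) : (dl t)⁻¹.1 = !![t⁻¹.1, 0; 0, t.1] := by
  rw [← map_inv, dl_val, inv_inv]

theorem dl_det (t : Kˣ) : (dl t).1.det = 1 := by simp [dl_val]

theorem lau_1 : (fun t : Kˣ => t.1) ∈ Lau K K := Lau.congr (Lau.ch 1) fun t => by simp [ch_apply]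

theorem lau_2 : (fun t : Kˣ => t⁻¹.1) ∈ Lau K K :=
  Lau.congr (Lau.ch (-1)) fun t => by simp [ch_apply]

theorem lm_dl : LM fun t : Kˣ => (dl t).1 := fun i j => by
  fin_cases i <;> fin_cases j
  exacts [lau_1, Lau.const 0, Lau.const 0, lau_2]

theorem lm_dl' : LM fun t : Kˣ => (dl t)⁻¹.1 := fun i j => by
  simp only [dl_inv]
  fin_cases i <;> fin_cases j
  exacts [lau_2, Lau.const 0, Lau.const 0, lau_1]

theorem map_dl (σ : K ≃ₐ[k] K) (t : Kˣ) :
    GeneralLinearGroup.map (σ : K →+* K) (dl t) = dl (Units.map (σ : K →* K) t) :=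
  Units.ext (Matrix.ext fun i j => by fin_cases i <;> fin_cases j <;> simp [dl_val])

section

variable {n : Type} [Fintype n] [DecidableEq n] {o : (K ≃ₐ[k] K) →* ℤˣ} {σ : K ≃ₐ[k] K}

theorem st_in (h : o σ = 1) (g : GL n K) : st o σ g = GeneralLinearGroup.map (σ : K →+* K) g := by
  rw [st, if_pos h]

theorem st_out (h : o σ ≠ 1) (g : GL n K) :
    st o σ g = it (GeneralLinearGroup.map (σ : K →+* K) g) := by
  rw [st, if_neg h, MonoidHom.comp_apply]

end

variable [CharZero K]

/-- The action of `GL₆ × GL₂` by matrices. -/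
noncomputable def uu (g : GL S K) (h : GL (Fin 2) K) : GL I K :=
  EU.symm ⟨io g h.1 1, io g⁻¹ h⁻¹.1 1, by simp [io_mul, io_one], by simp [io_mul, io_one]⟩

theorem E_uu (g : GL S K) (h : GL (Fin 2) K) : E (uu g h).1 = io g h.1 1 := by
  rw [← EU_val, uu, MulEquiv.apply_symm_apply]

theorem uu_mul (g g' : GL S K) (h h' : GL (Fin 2) K) : uu (g * g') (h * h') = uu g h * uu g' h' :=
  Units.ext (E.injective (by
    rw [Units.val_mul, map_mul, E_uu, E_uu, E_uu, io_mul, mul_one, Units.val_mul]))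

theorem uu_one : uu (1 : GL S K) 1 = 1 :=
  Units.ext (E.injective (by rw [E_uu, Units.val_one, io_one, Units.val_one, map_one]))

theorem uu_inv (g : GL S K) (h : GL (Fin 2) K) : (uu g h)⁻¹ = uu g⁻¹ h⁻¹ :=
  inv_eq_of_mul_eq_one_right (by rw [← uu_mul, mul_inv_cancel, mul_inv_cancel, uu_one])

theorem map_uu (f : K →+* K) (g : GL S K) (h : GL (Fin 2) K) :
    GeneralLinearGroup.map f (uu g h) =
      uu (GeneralLinearGroup.map f g) (GeneralLinearGroup.map f h) :=
  Units.ext (E.injective (by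
    rw [E_uu]
    exact (cj_E f _).symm.trans (by rw [E_uu, cj_io, map_one]; rfl)))

theorem it_uu (g : GL S K) (h : GL (Fin 2) K) : it (uu g h) = uu (it g) (it h) :=
  Units.ext (E.injective (by
    rw [it_val, ← tp_E, uu_inv, E_uu, E_uu, tp_io, map_inv, inv_inv, it_val]))

theorem st_uu (o : (K ≃ₐ[k] K) →* ℤˣ) (σ : K ≃ₐ[k] K) (g : GL S K) (h : GL (Fin 2) K) :
    st o σ (uu g h) = uu (st o σ g) (st o σ h) := by
  by_cases e : o σ = 1
  · rw [st_in e, st_in e, st_in e, map_uu]
  · rw [st_out e, st_out e, st_out e, map_uu, it_uu]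

/-- An equivariant cocharacter. -/
theorem nani {T : Tw k (SE K)} {o : (K ≃ₐ[k] K) →* ℤˣ} {p : (K ≃ₐ[k] K) → GL I K} {m : GL I K}
    (hT : Rep T o p) (hm : Sim m) (g : Kˣ →* GL S K) (h : Kˣ →* GL (Fin 2) K)
    (g1 : LM fun t => (g t).1) (g2 : LM fun t => (g t)⁻¹.1) (h1 : LM fun t => (h t).1)
    (dg : ∀ t, (g t).1.det = 1) (dh : ∀ t, (h t).1.det = 1)
    (eq : ∀ σ, ∃ (c : K) (G : GL S K) (H : Matrix (Fin 2) (Fin 2) K) (L : K),
      E (tw o m p σ).1 = c • io G H L ∧ ∀ t, g (Units.map (σ : K →* K) t) * G = G * st o σ (g t) ∧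
        (h (Units.map (σ : K →* K) t)).1 * H = H * (st o σ (h t)).1)
    (ne : ∃ t, io (g t) (h t).1 1 ≠ 1) : ¬T.Ani := by
  intro an
  have : Infinite K := .of_injective _ Nat.cast_injective
  let l : Kˣ →* GL I K := .mk' (fun t => m⁻¹ * uu (g t) (h t) * m) fun t u => by
    simp only [map_mul, uu_mul, mul_assoc, mul_inv_cancel_left]
  have lv : ∀ t, l t = m⁻¹ * uu (g t) (h t) * m := fun _ => rfl
  obtain ⟨ν, ν0, hν⟩ := hm
  have mem : ∀ t, l t ∈ SE K := fun t => mem_SE.2 fun x => mul_left_cancel₀ ν0 (by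
    have s : Sm 1 (E (uu (g t) (h t)).1) := fun y => by
      rw [E_uu, N_io (by rw [dg, dh, one_pow, one_mul]), dh, one_mul]
    rw [← hν, mulVec_mulVec, ← Units.val_mul, lv, ← mul_assoc, ← mul_assoc, mul_inv_cancel, one_mul,
      Units.val_mul, ← mulVec_mulVec, sm_E.1 s, one_mul, hν])
  have lu : LM fun t => (uu (g t) (h t)).1 := by
    have := lm_E (X := fun t => io (g t) (h t).1 1)
      (fun y => by simpa only [io_1, one_smul] using (g2.tp.mul (LM.const _)).mul g2)
      fun y => (h1.mul (LM.const _)).mul g1.tp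
    simpa only [← E_uu, AlgEquiv.symm_apply_apply] using this
  obtain ⟨q, y, hq⟩ := diag_of_lau l (((LM.const m⁻¹.1).mul lu).mul (LM.const m.1))
  obtain rfl := an q y (fun t => ⟨l t, mem t⟩) hq fun σ t => Subtype.ext (by
    obtain ⟨c, G, H, L, e, e'⟩ := eq σ
    have e1 : uu (g (Units.map (σ : K →* K) t)) (h (Units.map (σ : K →* K) t)) * tw o m p σ =
        tw o m p σ * st o σ (uu (g t) (h t)) := Units.ext (E.injective (by
      rw [Units.val_mul, Units.val_mul, map_mul, map_mul, st_uu, E_uu, E_uu, e, mul_smul_comm,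
        smul_mul_assoc, io_mul, io_mul, (e' t).1, (e' t).2, one_mul, mul_one]))
    refine mul_right_cancel ((hT σ _).trans ?_)
    show p σ * st o σ (l t) = l _ * p σ
    have e2 : p σ = m⁻¹ * tw o m p σ * st o σ m := by simp [tw, mul_assoc]
    rw [lv, lv, map_mul, map_mul, map_inv, e2]
    simp only [mul_assoc, mul_inv_cancel_left]
    rw [← mul_assoc (uu _ _), e1, mul_assoc])
  obtain ⟨t, ht⟩ := ne
  have := hq t
  simp only [Pi.zero_apply, zpow_zero, Units.val_one, diagonal_one, mul_one] at this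
  have e : l t = 1 := Units.ext (q.mul_left_inj.1 (this.trans (one_mul _).symm))
  rw [lv, mul_assoc, inv_mul_eq_one, right_eq_mul] at e
  exact ht (by rw [← E_uu, e, Units.val_one, map_one])

theorem tor0 : TOR0 := by
  intro k K _ _ _ _ T o p m g l hT hm h
  refine nani hT hm 1 dl (LM.const _) (LM.const _) lm_dl (fun _ => det_one) dl_det
    (fun σ => ⟨1, g σ, _, l σ, (h.eq σ).trans (one_smul _ _).symm, fun t => ⟨by simp, ?_⟩⟩)
    ⟨Units.mk0 2 two_ne_zero, fun e => ?_⟩
  · by_cases e : o σ = 1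
    · simp [hq, e, st_in e, map_dl]
    · rw [st_out e, map_dl, it_val, dl_inv]
      ext i j
      fin_cases i <;> fin_cases j <;> simp [hq, e, wq, dl_val, mul_apply]
  · have := congrArg (fun X : R K => (X (jm 0 (zero_mem _) (of fun _ _ => 1))).2 0 (0, 0)) e
    simp only [io_2, MonoidHom.one_apply, Units.val_one, transpose_one, Matrix.mul_one, jm_2] at this
    simp [dl_val, mul_apply] at this

end Vale.Agent.P011LU
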